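import Vale.Agent.P365L.Defs
import Mathlib.Analysis.CStarAlgebra.ContinuousFunctionalCalculus.Basic
import Mathlib.Analysis.CStarAlgebra.ContinuousLinearMap
import Mathlib.Probability.Distributions.Uniform

/-!
# P365: the Anderson operator as a bounded operator on `ℓ²(ℤ²)` (definitions)
-/

namespace Vale.Agent.P365W

open MeasureTheory P365L

section

variable {E : Type} [NormedAddCommGroup E] [InnerProductSpace ℂ E] [CompleteSpace E]

/-- `u` is an eigenvector of `H` with the eigenvalue `z`: `u ≠ 0` and `H u = z u`. -/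
def IsEigenvector (H : E →L[ℂ] E) (z : ℂ) (u : E) : Prop := u ≠ 0 ∧ H u = z • u

/-- The eigenvectors of `H` span a dense subspace. -/
def PurePoint (H : E →L[ℂ] E) : Prop :=
  Dense (Submodule.span ℂ {u | ∃ z, IsEigenvector H z u} : Set E)

/-- The real eigenvalues of `H`. -/
def eigenvalues (H : E →L[ℂ] E) : Set ℝ := {t | ∃ u, IsEigenvector H t u}

/-- `μ` is the spectral measure of `ψ`: a finite measure with `⟨ψ, f(H) ψ⟩ = ∫ f dμ` for all
bounded continuous `f`, where `f(H)` is given by the continuous functional calculus. -/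
def IsSpectralMeasure (H : E →L[ℂ] E) (ψ : E) (μ : Measure ℝ) : Prop :=
  IsFiniteMeasure μ ∧ ∀ f : BoundedContinuousFunction ℝ ℝ,
    inner ℂ ψ (cfc (f : ℝ → ℝ) H ψ) = (∫ t, f t ∂μ : ℝ)

/-- `H` is self-adjoint with spectrum `I` and has pure point spectrum; its eigenvalues are simple,
countably many and dense in the spectrum, there is a Hilbert basis with one eigenvector for each
eigenvalue, and every spectral measure exists, is unique and is carried by the eigenvalues. -/
structure SimplePurePoint (H : E →L[ℂ] E) (I : Set ℝ) : Prop where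
  selfAdjoint : IsSelfAdjoint H
  spectrum_eq : spectrum ℂ H = Complex.ofReal '' I
  purePoint : PurePoint H
  simple : ∀ z u v, IsEigenvector H z u → IsEigenvector H z v → ∃ c : ℂ, v = c • u
  countable : (eigenvalues H).Countable
  dense : closure (eigenvalues H) = I
  basis : ∃ b : HilbertBasis (eigenvalues H) ℂ E, ∀ t, IsEigenvector H t.1 (b t)
  spectral : ∀ ψ, (∃! μ, IsSpectralMeasure H ψ μ) ∧
    ∀ μ, IsSpectralMeasure H ψ μ → μ (eigenvalues H)ᶜ = 0

end

/-- `H` is the Anderson operator of the realization `w` at disorder `lam`: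
`(H ψ)(x) = ∑_{|y - x|₁ = 1} ψ(y) + lam w(x) ψ(x)`. -/
def IsAnderson (lam : ℝ) (w : Site → ℝ) (H : L2 →L[ℂ] L2) : Prop :=
  ∀ (ψ : L2) (x : Site), H ψ x =
    (∑ᶠ y ∈ {y : Site | |y.1 - x.1| + |y.2 - x.2| = 1}, ψ y) + (lam * w x : ℝ) * ψ x

/-- `u` decays exponentially. -/
def ExpDecay (u : L2) : Prop :=
  ∃ C c : ℝ, 0 < c ∧ ∀ y : Site, ‖u y‖ ≤ C * Real.exp (-c * (|y.1| + |y.2| : ℤ))

end Vale.Agent.P365W
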