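import Vale.Agent.P365W82.Prob
import Vale.Agent.P365.T2.H439.ExpGoal
import Mathlib.Probability.HasLawExists

/-!
# P365: localization for the Anderson operator on `ℓ²(ℤ²)`
-/

namespace Vale.Agent.P365W

open P365L Filter Topology MeasureTheory ProbabilityTheory

theorem separable : TopologicalSpace.SeparableSpace L2 := by
  have h1 : TopologicalSpace.IsSeparable
      (Submodule.span ℂ (Set.range fun x : Site => (lp.single 2 x 1 : L2)) : Set L2) :=
    (Set.countable_range _).isSeparable.span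
  refine TopologicalSpace.isSeparable_univ_iff.1 (h1.closure.mono fun φ _ => ?_)
  refine mem_closure_of_tendsto (lp.hasSum_single (by norm_num) φ) (.of_forall fun S => ?_)
  refine Submodule.sum_mem _ fun x _ => ?_
  have : (lp.single 2 x (φ x) : L2) = φ x • (lp.single 2 x 1 : L2) := by
    rw [← lp.single_smul, smul_eq_mul, mul_one]
  exact this ▸ Submodule.smul_mem _ _ (Submodule.subset_span ⟨x, rfl⟩)

theorem IsAnderson.eigen_iff {lam : ℝ} {w : Site → ℝ} {H : L2 →L[ℂ] L2} (h : IsAnderson lam w H)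
    {z : ℂ} {u : L2} : H u = z • u ↔
      ∀ x, hop (fun y => u y) x + ((lam * w x : ℝ) : ℂ) * u x = z * u x := by
  simp only [← lap_apply, ← isAnderson_iff.1 h u]
  exact ⟨fun h x => by rw [h]; rfl, fun h => lp.ext (funext h)⟩

theorem localized {lam : ℝ} (hl : 0 < lam) {w : Site → ℝ} (hw : ∀ x, |w x| ≤ 1) (hr : Rich w)
    (he : P365T2.H439.ExpLocalized fun x => lam * w x) {H : L2 →L[ℂ] L2}
    (h : IsAnderson lam w H) : SimplePurePoint H (Set.Icc (-4 - lam) (4 + lam)) ∧
      ∀ z u, IsEigenvector H z u → ExpDecay u := by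
  have := separable
  have hH := h.selfAdjoint hl hw
  refine ⟨simplePurePoint hH (h.spectrum_eq hl hw hr) ?_ fun z u v hu hv => ?_,
    fun z u hu => ?_⟩
  · refine (Submodule.dense_iff_topologicalClosure_eq_top.2 he.1).mono (Submodule.span_le.2 ?_)
    rintro u ⟨E, hu⟩
    by_cases h0 : u = 0
    · exact h0 ▸ Submodule.zero_mem _
    · exact Submodule.subset_span ⟨E, h0, h.eigen_iff.2 hu⟩
  · have hz := hu.real hH
    rw [hz] at hu hv
    exact he.2.1 _ u v (h.eigen_iff.1 hu.2) (h.eigen_iff.1 hv.2) hu.1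
  · rw [hu.real hH] at hu
    obtain ⟨C, c, hc, hC⟩ := he.2.2 _ u (h.eigen_iff.1 hu.2)
    refine ⟨C, c, hc, fun y => (hC y).trans_eq ?_⟩
    rw [← Int.natCast_natAbs, ← Int.natCast_natAbs]
    norm_cast

theorem exists_model : ∃ (Ω : Type) (_ : MeasurableSpace Ω) (P : Measure Ω) (w : Site → Ω → ℝ),
    iIndepFun w P ∧ ∀ x, pdf.IsUniform (w x) (Set.Icc (-1) 1) P volume := by
  have : IsProbabilityMeasure (cond volume (Set.Icc (-1 : ℝ) 1)) :=
    cond_isProbabilityMeasure_of_finite (by simp) (by simp)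
  obtain ⟨Ω, _, P, w, -, h1, h2, -⟩ := exists_iid Site (cond volume (Set.Icc (-1 : ℝ) 1))
  exact ⟨Ω, _, P, w, h2, fun x => (h1 x).map_eq⟩

theorem main {lam : ℝ} (hl : 0 < lam) {Ω : Type*} [MeasurableSpace Ω] (P : Measure Ω)
    (w : Site → Ω → ℝ) (hi : iIndepFun w P)
    (hu : ∀ x, pdf.IsUniform (w x) (Set.Icc (-1) 1) P volume) :
    ∀ᵐ o ∂P, (∃! H, IsAnderson lam (fun x => w x o) H) ∧
      ∀ H, IsAnderson lam (fun x => w x o) H →
        SimplePurePoint H (Set.Icc (-4 - lam) (4 + lam)) ∧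
        ∀ z u, IsEigenvector H z u → ExpDecay u := by
  have := hi.isProbabilityMeasure
  have hm : ∀ x, AEMeasurable (w x) P := fun x => (hu x).aemeasurable (by simp) (by simp)
  have h1 : ∀ x, Measurable ((hm x).mk _) := fun x => (hm x).measurable_mk
  have h2 : iIndepFun (fun x => (hm x).mk _) P := hi.congr fun x => (hm x).ae_eq_mk
  have h3 : ∀ x, P.map ((hm x).mk _) = cond volume (Set.Icc (-1) 1) := fun x =>
    (Measure.map_congr (hm x).ae_eq_mk).symm.trans (hu x)
  filter_upwards [ae_all_iff.2 fun x => (hm x).ae_eq_mk, ae_rich h1 h2 h3,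
    P365T2.H439.goalExp lam hl P _ h1 h2 h3] with o h4 h5 h6
  simp only [← h4] at h5 h6
  exact ⟨⟨_, isAnderson hl h5.1, fun H hH => hH.unique (isAnderson hl h5.1)⟩,
    fun H hH => localized hl h5.1 h5.2 h6 hH⟩

end Vale.Agent.P365W
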