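import Vale.Agent.P365W82.Spec

/-!
# P365: the Anderson operator exists, is unique, bounded and self-adjoint
-/

namespace Vale.Agent.P365W

open P365L Filter Topology

theorem two_pos' : 0 < (2 : ENNReal).toReal := by norm_num

/-- Translation `(S ψ)(x) = ψ(x + a)`. -/
noncomputable def shift (a : Site) : L2 →ₗᵢ[ℂ] L2 where
  toFun ψ := ⟨fun x => ψ (x + a), memℓp_gen
    ((Equiv.addRight a).summable_iff.2 ((lp.memℓp ψ).summable two_pos'))⟩
  map_add' _ _ := rfl
  map_smul' _ _ := rfl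
  norm_map' ψ := by
    rw [lp.norm_eq_tsum_rpow two_pos', lp.norm_eq_tsum_rpow two_pos' ψ,
      ← (Equiv.addRight a).tsum_eq fun x => ‖ψ x‖ ^ (2 : ENNReal).toReal]
    rfl

theorem shift_apply (a : Site) (ψ : L2) (x : Site) : shift a ψ x = ψ (x + a) := rfl

theorem inner_shift (a : Site) (u v : L2) : inner ℂ (shift a u) v = inner ℂ u (shift (-a) v) := by
  rw [lp.inner_eq_tsum, lp.inner_eq_tsum,
    ← (Equiv.addRight a).tsum_eq fun x => inner ℂ (u x) (shift (-a) v x)]
  simp [shift_apply]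

theorem norm_le_of_le {u v : L2} {c : ℝ} (hc : 0 ≤ c) (h : ∀ x, ‖u x‖ ≤ c * ‖v x‖) :
    ‖u‖ ≤ c * ‖v‖ := by
  have : ‖u‖ ≤ ‖(c : ℂ) • v‖ := lp.norm_mono (by norm_num) fun x => by
    rw [lp.coeFn_smul, Pi.smul_apply, norm_smul, Complex.norm_real, Real.norm_of_nonneg hc]
    exact h x
  rwa [norm_smul, Complex.norm_real, Real.norm_of_nonneg hc] at this

/-- Multiplication by a bounded real function. -/
noncomputable def mulOp (V : Site → ℝ) (c : ℝ) (h : ∀ x, |V x| ≤ c) : L2 →L[ℂ] L2 :=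
  LinearMap.mkContinuous
    { toFun := fun ψ => ⟨fun x => (V x : ℂ) * ψ x, (lp.memℓp ((c : ℂ) • ψ)).mono' fun x => by
        have := (h x).trans (le_abs_self c)
        simp only [norm_mul, lp.coeFn_smul, Pi.smul_apply, smul_eq_mul, Complex.norm_real,
          Real.norm_eq_abs]
        gcongr⟩
      map_add' := fun u v => lp.ext (funext fun x => mul_add _ _ _)
      map_smul' := fun a u => lp.ext (funext fun x => mul_left_comm _ _ _) } c
    fun ψ => norm_le_of_le ((abs_nonneg _).trans (h 0)) fun x => by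
      change ‖(V x : ℂ) * ψ x‖ ≤ _
      rw [norm_mul, Complex.norm_real, Real.norm_eq_abs]
      gcongr
      exact h x

theorem mulOp_apply (V : Site → ℝ) (c : ℝ) (h : ∀ x, |V x| ≤ c) (ψ : L2) (x : Site) :
    mulOp V c h ψ x = (V x : ℂ) * ψ x := rfl

/-- The hopping operator. -/
noncomputable def lap : L2 →L[ℂ] L2 :=
  (shift (1, 0)).toContinuousLinearMap + (shift (-(1, 0))).toContinuousLinearMap +
    (shift (0, 1)).toContinuousLinearMap + (shift (-(0, 1))).toContinuousLinearMap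

theorem lap_eq (ψ : L2) :
    lap ψ = shift (1, 0) ψ + shift (-(1, 0)) ψ + shift (0, 1) ψ + shift (-(0, 1)) ψ := rfl

theorem lap_apply (ψ : L2) (x : Site) : lap ψ x = hop (fun y => ψ y) x := by
  obtain ⟨a, b⟩ := x
  rw [lap_eq]
  simp [shift_apply, hop, sub_eq_add_neg]

theorem finsum_nb (f : Site → ℂ) (x : Site) :
    ∑ᶠ y ∈ {y : Site | |y.1 - x.1| + |y.2 - x.2| = 1}, f y = hop f x := by
  have h : {y : Site | |y.1 - x.1| + |y.2 - x.2| = 1} =
      (({(x.1 + 1, x.2), (x.1 - 1, x.2), (x.1, x.2 + 1), (x.1, x.2 - 1)} : Finset Site) :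
        Set Site) := by
    ext ⟨a, b⟩
    simp only [Set.mem_ofPred_eq, Finset.coe_insert, Finset.coe_singleton, Set.mem_insert_iff,
      Set.mem_singleton_iff, Prod.mk.injEq]
    rcases abs_cases (a - x.1) with h | h <;> rcases abs_cases (b - x.2) with h' | h' <;> omega
  rw [h, finsum_mem_coe_finset, Finset.sum_insert, Finset.sum_insert, Finset.sum_insert,
    Finset.sum_singleton, hop]
  · ring
  all_goals simp only [Finset.mem_insert, Finset.mem_singleton, Prod.mk.injEq]; omega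

theorem isAnderson_iff {lam : ℝ} {w : Site → ℝ} {H : L2 →L[ℂ] L2} :
    IsAnderson lam w H ↔ ∀ (ψ : L2) x, H ψ x = lap ψ x + (lam * w x : ℝ) * ψ x := by
  simp only [IsAnderson, finsum_nb, lap_apply]

theorem IsAnderson.unique {lam : ℝ} {w : Site → ℝ} {H H' : L2 →L[ℂ] L2}
    (h : IsAnderson lam w H) (h' : IsAnderson lam w H') : H = H' :=
  ContinuousLinearMap.ext fun ψ => lp.ext (funext fun x => (h ψ x).trans (h' ψ x).symm)

theorem abs_mul_le {lam : ℝ} (hl : 0 < lam) {w : Site → ℝ} (hw : ∀ x, |w x| ≤ 1) (x : Site) :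
    |lam * w x| ≤ lam := by
  rw [abs_mul, abs_of_pos hl]
  exact mul_le_of_le_one_right hl.le (hw x)

theorem isAnderson {lam : ℝ} (hl : 0 < lam) {w : Site → ℝ} (hw : ∀ x, |w x| ≤ 1) :
    IsAnderson lam w (lap + mulOp _ lam (abs_mul_le hl hw)) :=
  isAnderson_iff.2 fun _ _ => rfl

theorem norm_lap_le (ψ : L2) : ‖lap ψ‖ ≤ 4 * ‖ψ‖ := by
  rw [lap_eq]
  refine (norm_add₄_le ..).trans ?_
  simp only [LinearIsometry.norm_map]
  linarith

theorem IsAnderson.selfAdjoint {lam : ℝ} (hl : 0 < lam) {w : Site → ℝ} (hw : ∀ x, |w x| ≤ 1)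
    {H : L2 →L[ℂ] L2} (h : IsAnderson lam w H) : IsSelfAdjoint H := by
  rw [h.unique (isAnderson hl hw), ContinuousLinearMap.isSelfAdjoint_iff_isSymmetric]
  intro u v
  change inner ℂ (lap u + mulOp _ lam _ u) v = inner ℂ u (lap v + mulOp _ lam _ v)
  rw [inner_add_left, inner_add_right]
  congr 1
  · simp only [lap_eq, inner_add_left, inner_add_right, inner_shift, neg_neg]
    ring
  · rw [lp.inner_eq_tsum, lp.inner_eq_tsum]
    refine tsum_congr fun x => ?_
    simp only [mulOp_apply, RCLike.inner_apply, map_mul, Complex.conj_ofReal]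
    ring

theorem IsAnderson.norm_le {lam : ℝ} (hl : 0 < lam) {w : Site → ℝ} (hw : ∀ x, |w x| ≤ 1)
    {H : L2 →L[ℂ] L2} (h : IsAnderson lam w H) : ‖H‖ ≤ 4 + lam := by
  rw [h.unique (isAnderson hl hw)]
  refine (norm_add_le ..).trans (add_le_add ?_ ?_)
  · exact ContinuousLinearMap.opNorm_le_bound _ (by norm_num) norm_lap_le
  · exact LinearMap.mkContinuous_norm_le _ hl.le _

end Vale.Agent.P365W
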