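import Vale.Agent.P365W82.Weyl
import Mathlib.Probability.Independence.ZeroOne

/-!
# P365: almost every realization contains every finite pattern
-/

namespace Vale.Agent.P365W

open P365L Filter Topology MeasureTheory ProbabilityTheory
open scoped ENNReal

variable {Ω : Type*} [MeasurableSpace Ω] {P : Measure Ω} {w : Site → Ω → ℝ}

theorem block (hw : ∀ x, Measurable (w x)) (hi : iIndepFun w P) {ν : Measure ℝ}
    (hl : ∀ x, P.map (w x) = ν) (S : Finset Site) {B : Set ℝ} (hB : MeasurableSet B)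
    (h0 : ν B ≠ 0) : ∀ᵐ o ∂P, ∃ a : Site, ∀ x ∈ S, w (x + a) o ∈ B := by
  have := hi.isProbabilityMeasure
  obtain ⟨N, hN⟩ : ∃ N : ℤ, ∀ x ∈ S, |x.1| < N := by
    obtain ⟨M, hM⟩ := (S.image fun x => |x.1|).bddAbove
    exact ⟨M + 1, fun x hx => Int.lt_add_one_of_le
      (hM (Finset.mem_coe.2 (Finset.mem_image_of_mem _ hx)))⟩
  let a : ℕ → Site := fun k => (2 * N * k + N, 0)
  let A : ℕ → Set Ω := fun k => ⋂ x ∈ S, w (x + a k) ⁻¹' B
  let m : Site → MeasurableSpace Ω := fun y => MeasurableSpace.comap (w y) inferInstance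
  have hA : ∀ k (T : Set Site), (∀ x ∈ S, x + a k ∈ T) → MeasurableSet[⨆ y ∈ T, m y] (A k) :=
    fun k T h => Finset.measurableSet_biInter _ fun x hx =>
      (le_iSup₂ (f := fun y (_ : y ∈ T) => m y) _ (h x hx)) _ ⟨B, hB, rfl⟩
  have hAm : ∀ k, MeasurableSet (A k) := fun k =>
    Finset.measurableSet_biInter _ fun x _ => hw _ hB
  have hP : ∀ k, P (A k) = ν B ^ S.card := fun k => by
    have h1 : iIndepFun (fun x => w (x + a k)) P := hi.precomp (add_left_injective (a k))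
    rw [h1.measure_inter_preimage_eq_mul S (sets := fun _ => B) fun _ _ => hB,
      Finset.prod_congr rfl fun x _ => (Measure.map_apply (hw _) hB).symm]
    simp [hl]
  have hC : ∀ K : ℕ, P (⋂ k ∈ Finset.range K, (A k)ᶜ) = (1 - ν B ^ S.card) ^ K := by
    intro K
    induction K with
    | zero => simp
    | succ K ih =>
      have hd : Disjoint {y : Site | 2 * N * K ≤ y.1} {y : Site | y.1 < 2 * N * K} :=
        Set.disjoint_left.2 fun y h1 h2 => lt_irrefl _ (lt_of_le_of_lt (show 2 * N * K ≤ y.1 from h1) h2)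
      have h1 := indep_iSup_of_disjoint (fun y => (hw y).comap_le) hi.iIndep hd
      rw [Finset.range_add_one, Finset.set_biInter_insert, (Indep_iff _ _ _).1 h1, ih,
        prob_compl_eq_one_sub (hAm K), hP, pow_succ']
      · refine (hA _ _ fun x hx => ?_).compl
        have := abs_lt.1 (hN x hx)
        simp only [a, Set.mem_ofPred_eq, Prod.fst_add]
        omega
      · refine Finset.measurableSet_biInter _ fun k hk => (hA _ _ fun x hx => ?_).compl
        have h2 := abs_lt.1 (hN x hx)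
        have h3 : (k : ℤ) + 1 ≤ K := by exact_mod_cast Finset.mem_range.1 hk
        simp only [a, Set.mem_ofPred_eq, Prod.fst_add]
        nlinarith
  have hlt : 1 - ν B ^ S.card < 1 :=
    ENNReal.sub_lt_self ENNReal.one_ne_top one_ne_zero (pow_ne_zero _ h0)
  rw [ae_iff]
  refine le_antisymm (ge_of_tendsto' (ENNReal.tendsto_pow_atTop_nhds_zero_of_lt_one hlt)
    fun K => ?_) zero_le
  rw [← hC]
  refine measure_mono fun o ho => Set.mem_iInter₂.2 fun k _ hk => ho ⟨a k, ?_⟩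
  exact fun x hx => Set.mem_iInter₂.1 hk x hx

theorem ae_rich (hw : ∀ x, Measurable (w x)) (hi : iIndepFun w P)
    (hl : ∀ x, P.map (w x) = cond volume (Set.Icc (-1) 1)) :
    ∀ᵐ o ∂P, (∀ x, |w x o| ≤ 1) ∧ Rich fun x => w x o := by
  have h1 : ∀ᵐ o ∂P, ∀ x, |w x o| ≤ 1 := ae_all_iff.2 fun x => by
    have h2 : ∀ᵐ t ∂(cond volume (Set.Icc (-1 : ℝ) 1)), t ∈ Set.Icc (-1 : ℝ) 1 :=
      ae_cond_mem measurableSet_Icc
    rw [← hl x] at h2
    filter_upwards [ae_of_ae_map (hw x).aemeasurable h2] with o ho using abs_le.2 ho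
  have h2 : ∀ᵐ o ∂P, ∀ (S : Finset Site) (p q : ℚ), -1 ≤ (p : ℝ) → p < (q : ℝ) → (q : ℝ) ≤ 1 →
      ∃ a : Site, ∀ x ∈ S, w (x + a) o ∈ Set.Ioo (p : ℝ) q := by
    simp only [ae_all_iff]
    intro S p q hp hpq hq
    refine block hw hi hl S measurableSet_Ioo ?_
    rw [cond_apply measurableSet_Icc, Set.inter_eq_right.2
      (Set.Ioo_subset_Icc_self.trans (Set.Icc_subset_Icc hp hq))]
    simpa using hpq
  filter_upwards [h1, h2] with o ho ho'
  refine ⟨ho, fun S t ε ht hε => ?_⟩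
  have ht' := abs_le.1 ht
  obtain ⟨p, hp1, hp2⟩ := exists_rat_btwn (show max (-1) (t - ε) < min 1 (t + ε) by
    simp only [max_lt_iff, lt_min_iff]
    refine ⟨⟨?_, ?_⟩, ?_, ?_⟩ <;> linarith [ht'.1, ht'.2])
  obtain ⟨q, hq1, hq2⟩ := exists_rat_btwn hp2
  obtain ⟨a, ha⟩ := ho' S p q (max_lt_iff.1 hp1).1.le hq1 (lt_min_iff.1 hq2).1.le
  refine ⟨a, fun x hx => abs_lt.2 ⟨?_, ?_⟩⟩
  · linarith [(ha x hx).1, (max_lt_iff.1 hp1).2]
  · linarith [(ha x hx).2, (lt_min_iff.1 hq2).2]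

end Vale.Agent.P365W
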