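import Vale.Agent.P365W82.Defs

/-!
# P365: operators with simple pure point spectrum
-/

set_option linter.unusedSectionVars false

namespace Vale.Agent.P365W

open MeasureTheory Filter Topology
open scoped ENNReal

variable {E : Type} [NormedAddCommGroup E] [InnerProductSpace ℂ E] [CompleteSpace E]
  {H : E →L[ℂ] E}

theorem sym (hH : IsSelfAdjoint H) (u v : E) : inner ℂ (H u) v = inner ℂ u (H v) :=
  hH.isSymmetric u v

theorem IsEigenvector.real (hH : IsSelfAdjoint H) {z : ℂ} {u : E} (h : IsEigenvector H z u) :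
    z = (z.re : ℂ) := by
  have h1 := sym hH u u
  rw [h.2, inner_smul_left, inner_smul_right] at h1
  have h2 : inner ℂ u u ≠ 0 := by simpa using h.1
  exact (Complex.conj_eq_iff_re.1 (mul_right_cancel₀ h2 h1)).symm

theorem IsEigenvector.mem_spectrum {z : ℂ} {u : E} (h : IsEigenvector H z u) :
    z ∈ spectrum ℂ H := by
  rw [spectrum.mem_iff]
  rintro ⟨U, hU⟩
  have h1 : (algebraMap ℂ (E →L[ℂ] E) z - H) u = 0 := by
    simp [Algebra.algebraMap_eq_smul_one, h.2]
  have h2 : ((U⁻¹ : (E →L[ℂ] E)ˣ) * U : E →L[ℂ] E) u = u := by simp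
  rw [mul_apply_eq_comp, hU, h1, map_zero] at h2
  exact h.1 h2.symm

theorem IsEigenvector.mem_spectrum_real {t : ℝ} {u : E} (h : IsEigenvector H t u) :
    t ∈ spectrum ℝ H :=
  spectrum.of_algebraMap_mem ℂ h.mem_spectrum

theorem cfc_eigen (hH : IsSelfAdjoint H) {t : ℝ} {u : E} (h : IsEigenvector H t u)
    {f : ℝ → ℝ} (hf : Continuous f) : cfc f H u = (f t : ℂ) • u := by
  have key : ∀ g : C(spectrum ℝ H, ℝ),
      cfcHom hH g u = (g ⟨t, h.mem_spectrum_real⟩ : ℂ) • u := by
    intro g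
    induction g using ContinuousMap.induction_on_of_compact with
    | const r =>
      have : ContinuousMap.const (spectrum ℝ H) r = algebraMap ℝ _ r := rfl
      rw [this, AlgHomClass.commutes, Algebra.algebraMap_eq_smul_one]
      simp [Algebra.algebraMap_eq_smul_one]
    | id => rw [cfcHom_id]; exact h.2
    | star_id => rw [star_trivial, cfcHom_id]; exact h.2
    | add f g hf hg => rw [map_add, add_apply, hf, hg]; simp [add_smul]
    | mul f g hf hg =>
      rw [map_mul, mul_apply_eq_comp, hg, map_smul, hf, smul_smul]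
      simp [mul_comm]
    | frequently f hf =>
      have hc : IsClosed {g : C(spectrum ℝ H, ℝ) |
          cfcHom hH g u = (g ⟨t, h.mem_spectrum_real⟩ : ℂ) • u} := by
        have := cfcHom_continuous (R := ℝ) hH
        exact isClosed_eq (by fun_prop) (by fun_prop)
      exact hc.closure_subset (mem_closure_iff_frequently.2 hf)
  rw [cfc_apply f H hH hf.continuousOn, key]
  rfl

theorem exists_basis (hH : IsSelfAdjoint H) (hp : PurePoint H)
    (hs : ∀ z u v, IsEigenvector H z u → IsEigenvector H z v → ∃ c : ℂ, v = c • u) :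
    ∃ b : HilbertBasis (eigenvalues H) ℂ E, ∀ t, IsEigenvector H t.1 (b t) := by
  have h1 : ∀ t : eigenvalues H, ∃ u, ‖u‖ = 1 ∧ IsEigenvector H t.1 u := by
    rintro ⟨t, u, hu⟩
    have h0 : ‖u‖ ≠ 0 := norm_ne_zero_iff.2 hu.1
    refine ⟨((‖u‖⁻¹ : ℝ) : ℂ) • u, by simp [norm_smul, h0], ?_, ?_⟩
    · exact smul_ne_zero (by simpa using hu.1) hu.1
    · rw [map_smul, hu.2, smul_comm]
  choose v hv1 hv using h1
  have ho : Orthonormal ℂ v := by
    refine ⟨hv1, fun s t hst => ?_⟩
    have h2 := sym hH (v s) (v t)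
    rw [(hv s).2, (hv t).2, inner_smul_left, inner_smul_right, Complex.conj_ofReal] at h2
    by_contra h3
    exact hst (Subtype.ext (Complex.ofReal_injective (mul_right_cancel₀ h3 h2)))
  have hsp : ⊤ ≤ (Submodule.span ℂ (Set.range v)).topologicalClosure := by
    intro x _
    refine closure_mono (s := (Submodule.span ℂ {u | ∃ z, IsEigenvector H z u} : Set E)) ?_ (hp x)
    refine Submodule.span_le.2 ?_
    rintro u ⟨z, hu⟩
    rw [hu.real hH] at hu
    obtain ⟨c, hc⟩ := hs _ _ _ (hv ⟨z.re, u, hu⟩) hu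
    exact hc.symm ▸ Submodule.smul_mem _ c (Submodule.subset_span ⟨⟨z.re, u, hu⟩, rfl⟩)
  exact ⟨HilbertBasis.mk ho hsp, fun t => by rw [HilbertBasis.coe_mk]; exact hv t⟩

theorem countable_of_basis {ι : Type} [TopologicalSpace.SeparableSpace E]
    (b : HilbertBasis ι ℂ E) : Countable ι := by
  refine Pairwise.countable_of_isOpen_disjoint (s := fun i => Metric.ball (b i) (1 / 2))
    (fun i j hij => Metric.ball_disjoint_ball ?_) (fun _ => Metric.isOpen_ball)
    fun _ => Metric.nonempty_ball.2 (by norm_num)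
  have h1 : ‖b i - b j‖ ^ 2 = 2 := by
    rw [@norm_sub_sq ℂ, b.orthonormal.1, b.orthonormal.1, b.orthonormal.2 hij]
    norm_num
  rw [dist_eq_norm]
  nlinarith [norm_nonneg (b i - b j)]

section Basis

variable (hH : IsSelfAdjoint H) (b : HilbertBasis (eigenvalues H) ℂ E)
  (hb : ∀ t, IsEigenvector H t.1 (b t))

include hH hb

theorem hasSum_cfc (ψ : E) {f : ℝ → ℝ} (hf : Continuous f) :
    HasSum (fun t : eigenvalues H => (((‖inner ℂ (b t) ψ‖ ^ 2 * f t : ℝ)) : ℂ))
      (inner ℂ ψ (cfc f H ψ)) := by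
  have hc : IsSelfAdjoint (cfc f H) := cfc_predicate f H
  have h1 : ∀ t : eigenvalues H, inner ℂ ψ (b t) * inner ℂ (b t) (cfc f H ψ) =
      (((‖inner ℂ (b t) ψ‖ ^ 2 * f t : ℝ)) : ℂ) := fun t => by
    rw [← sym hc, cfc_eigen hH (hb t) hf, inner_smul_left, Complex.conj_ofReal,
      ← inner_conj_symm ψ (b t), mul_left_comm, Complex.conj_mul']
    push_cast
    ring
  simpa only [h1] using b.hasSum_inner_mul_inner ψ (cfc f H ψ)

theorem exists_spectral [Countable (eigenvalues H)] (ψ : E) :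
    ∃ μ, IsSpectralMeasure H ψ μ ∧ μ (eigenvalues H)ᶜ = 0 := by
  have hs : HasSum (fun t : eigenvalues H => ‖inner ℂ (b t) ψ‖ ^ 2 * (1 : ℝ))
      (inner ℂ ψ (cfc (fun _ : ℝ => (1 : ℝ)) H ψ)).re :=
    Complex.hasSum_re (hasSum_cfc hH b hb ψ continuous_const)
  let μ : Measure ℝ := Measure.sum fun t : eigenvalues H =>
    ENNReal.ofReal (‖inner ℂ (b t) ψ‖ ^ 2 * 1) • Measure.dirac t.1
  have hm : MeasurableSet (eigenvalues H) := (Set.to_countable _).measurableSet
  have hfin : IsFiniteMeasure μ := ⟨by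
    rw [Measure.sum_apply _ MeasurableSet.univ]
    simp only [Measure.smul_apply, measure_univ, smul_eq_mul, mul_one]
    have := ENNReal.ofReal_tsum_of_nonneg (fun t => by positivity) hs.summable
    simp only [mul_one] at this
    rw [← this]
    exact ENNReal.ofReal_lt_top⟩
  refine ⟨μ, ⟨hfin, fun f => ?_⟩, ?_⟩
  · have h1 := hasSum_integral_measure (f.integrable μ)
    have h2 : HasSum (fun t : eigenvalues H => ‖inner ℂ (b t) ψ‖ ^ 2 * f t) (∫ t, f t ∂μ) := by
      have h3 : ∀ t : eigenvalues H, ∫ x, f x ∂(ENNReal.ofReal (‖inner ℂ (b t) ψ‖ ^ 2 * 1) •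
          Measure.dirac t.1) = ‖inner ℂ (b t) ψ‖ ^ 2 * f t := fun t => by
        rw [integral_smul_measure, integral_dirac, ENNReal.toReal_ofReal (by positivity)]
        simp
      simpa only [h3] using h1
    exact (hasSum_cfc hH b hb ψ f.continuous).unique (Complex.hasSum_ofReal.2 h2)
  · rw [Measure.sum_apply _ hm.compl]
    refine ENNReal.tsum_eq_zero.2 fun t => ?_
    rw [Measure.smul_apply, Measure.dirac_apply' _ hm.compl, Set.indicator_of_notMem (by simp)]
    simp

theorem closure_eigenvalues :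
    Complex.ofReal '' closure (eigenvalues H) = spectrum ℂ H := by
  have hre : ∀ t : ℝ, t ∈ closure (eigenvalues H) ↔ t ∈ spectrum ℝ H := by
    intro t
    refine ⟨fun h => closure_minimal (fun s hs => hs.elim fun u hu => hu.mem_spectrum_real)
      (spectrum.isCompact H).isClosed h, fun h => ?_⟩
    by_contra hn
    obtain ⟨f, hf0, hf1, -⟩ := exists_continuous_zero_one_of_isClosed isClosed_closure
      (isClosed_singleton (x := t)) (Set.disjoint_singleton_right.2 hn)
    have h0 : cfc (f : ℝ → ℝ) H = 0 := by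
      ext x
      have h1 := (b.hasSum_repr x).mapL (cfc (f : ℝ → ℝ) H)
      have h2 : ∀ s, cfc (f : ℝ → ℝ) H (b.repr x s • b s) = 0 := fun s => by
        rw [map_smul, cfc_eigen hH (hb s) f.continuous, hf0 (subset_closure s.2)]
        simp
      simp only [h2] at h1
      exact h1.unique hasSum_zero
    have h3 : f t ∈ spectrum ℝ (cfc (f : ℝ → ℝ) H) := by
      rw [cfc_map_spectrum (f : ℝ → ℝ) H hH f.continuous.continuousOn]
      exact ⟨t, h, rfl⟩
    rw [h0, hf1 rfl] at h3
    exact spectrum.mem_iff.1 h3 (by simp)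
  ext z
  constructor
  · rintro ⟨t, ht, rfl⟩
    exact spectrum.algebraMap_mem ℂ ((hre t).1 ht)
  · intro hz
    have h1 := hH.mem_spectrum_eq_re hz
    refine ⟨z.re, (hre _).2 (spectrum.of_algebraMap_mem ℂ ?_), h1.symm⟩
    change (z.re : ℂ) ∈ _
    rwa [← h1]

end Basis

theorem IsSpectralMeasure.unique {ψ : E} {μ ν : Measure ℝ} (h : IsSpectralMeasure H ψ μ)
    (h' : IsSpectralMeasure H ψ ν) : μ = ν := by
  have := h.1
  have := h'.1
  exact ext_of_forall_integral_eq_of_IsFiniteMeasure fun f =>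
    Complex.ofReal_injective ((h.2 f).symm.trans (h'.2 f))

theorem simplePurePoint [TopologicalSpace.SeparableSpace E] {I : Set ℝ} (hH : IsSelfAdjoint H)
    (hI : spectrum ℂ H = Complex.ofReal '' I) (hp : PurePoint H)
    (hs : ∀ z u v, IsEigenvector H z u → IsEigenvector H z v → ∃ c : ℂ, v = c • u) :
    SimplePurePoint H I := by
  obtain ⟨b, hb⟩ := exists_basis hH hp hs
  have hc := countable_of_basis b
  refine ⟨hH, hI, hp, hs, hc, ?_, ⟨b, hb⟩, fun ψ => ?_⟩
  · exact Complex.ofReal_injective.image_injective ((closure_eigenvalues hH b hb).trans hI)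
  · obtain ⟨μ, hμ, h0⟩ := exists_spectral hH b hb ψ
    exact ⟨⟨μ, hμ, fun ν hν => hν.unique hμ⟩, fun ν hν => hν.unique hμ ▸ h0⟩

end Vale.Agent.P365W
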