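import Vale.Agent.P365W82.Op

/-!
# P365: the spectrum of the Anderson operator
-/

namespace Vale.Agent.P365W

open P365L Filter Topology

theorem summable_geo {r : ℝ} (h0 : 0 ≤ r) (h1 : r < 1) :
    Summable fun x : Site => r ^ x.1.natAbs * r ^ x.2.natAbs := by
  have h : Summable fun k : ℤ => r ^ k.natAbs :=
    Summable.of_nat_of_neg (by simpa using summable_geometric_of_lt_one h0 h1)
      (by simpa using summable_geometric_of_lt_one h0 h1)
  exact h.mul_of_nonneg h (fun _ => by positivity) fun _ => by positivity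

/-- A damped plane wave. -/
noncomputable def wave (k r : ℝ) (h0 : 0 ≤ r) (h1 : r < 1) : L2 :=
  ⟨fun x => Complex.exp (((k * (x.1 + x.2) : ℝ) : ℂ) * Complex.I) *
      ((r ^ (x.1.natAbs + x.2.natAbs) : ℝ) : ℂ),
    memℓp_gen ((summable_geo (r := r ^ 2) (by positivity) (by nlinarith)).congr fun x => by
      rw [norm_mul, Complex.norm_exp_ofReal_mul_I, Complex.norm_real,
        Real.norm_of_nonneg (by positivity)]
      norm_num
      ring)⟩

theorem wave_apply (k r : ℝ) (h0 : 0 ≤ r) (h1 : r < 1) (x : Site) : wave k r h0 h1 x =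
    Complex.exp (((k * (x.1 + x.2) : ℝ) : ℂ) * Complex.I) *
      ((r ^ (x.1.natAbs + x.2.natAbs) : ℝ) : ℂ) := rfl

theorem pow_near {r : ℝ} (h0 : 0 < r) (h1 : r < 1) {m n : ℕ} (h : m = n + 1 ∨ n = m + 1) :
    |r ^ m - r ^ n| ≤ (r⁻¹ - 1) * r ^ n := by
  have h2 : 1 - r ≤ r⁻¹ - 1 := by
    have : r * r⁻¹ = 1 := mul_inv_cancel₀ h0.ne'
    nlinarith [sq_nonneg (r - 1), inv_pos.2 h0]
  rcases h with rfl | rfl
  · have h3 : r ^ (n + 1) - r ^ n = -((1 - r) * r ^ n) := by ring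
    rw [h3, abs_neg, abs_of_nonneg (mul_nonneg (by linarith) (by positivity))]
    gcongr
  · have h3 : r ^ m - r ^ (m + 1) = (r⁻¹ - 1) * r ^ (m + 1) := by field_simp; ring
    rw [h3, abs_of_nonneg (mul_nonneg (by linarith) (by positivity))]

theorem shift_wave (k : ℝ) {r : ℝ} (h0 : 0 < r) (h1 : r < 1) (a : Site)
    (ha : a.1.natAbs + a.2.natAbs = 1) :
    ‖shift a (wave k r h0.le h1) - Complex.exp (((k * (a.1 + a.2) : ℝ) : ℂ) * Complex.I) •
      wave k r h0.le h1‖ ≤ (r⁻¹ - 1) * ‖wave k r h0.le h1‖ := by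
  refine norm_le_of_le (by have := one_le_inv₀ h0 |>.2 h1.le; linarith) fun x => ?_
  have h2 : (shift a (wave k r h0.le h1) - Complex.exp (((k * (a.1 + a.2) : ℝ) : ℂ) * Complex.I) •
      wave k r h0.le h1) x = Complex.exp (((k * ((x + a).1 + (x + a).2) : ℝ) : ℂ) * Complex.I) *
        ((r ^ ((x + a).1.natAbs + (x + a).2.natAbs) - r ^ (x.1.natAbs + x.2.natAbs) : ℝ) : ℂ) := by
    rw [lp.coeFn_sub, Pi.sub_apply, lp.coeFn_smul, Pi.smul_apply, shift_apply, wave_apply,
      wave_apply, smul_eq_mul, ← mul_assoc, ← Complex.exp_add]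
    simp only [Prod.fst_add, Prod.snd_add]
    push_cast
    ring_nf
  rw [h2, wave_apply, norm_mul, norm_mul, Complex.norm_exp_ofReal_mul_I,
    Complex.norm_exp_ofReal_mul_I, Complex.norm_real, Complex.norm_real, one_mul, one_mul,
    Real.norm_of_nonneg (by positivity : 0 ≤ r ^ (x.1.natAbs + x.2.natAbs))]
  refine pow_near h0 h1 ?_
  simp only [Prod.fst_add, Prod.snd_add]
  omega

/-- Approximate eigenvectors of the hopping operator. -/
theorem approx_lap {e δ : ℝ} (he : |e| ≤ 4) (hδ : 0 < δ) :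
    ∃ φ : L2, φ ≠ 0 ∧ ‖lap φ - (e : ℂ) • φ‖ ≤ δ * ‖φ‖ := by
  have h0 : 0 < (1 + δ / 4)⁻¹ := by positivity
  have h1 : (1 + δ / 4)⁻¹ < 1 := inv_lt_one_of_one_lt₀ (by linarith)
  set k := Real.arccos (e / 4)
  have hk : Real.cos k = e / 4 := Real.cos_arccos (by linarith [(abs_le.1 he).1])
    (by linarith [(abs_le.1 he).2])
  set φ := wave k _ h0.le h1
  refine ⟨φ, fun h => ?_, ?_⟩
  · have : φ 0 = 0 := by rw [h]; rfl
    simp [φ, wave_apply] at this
  · have a1 := shift_wave k h0 h1 (1, 0) rfl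
    have a2 := shift_wave k h0 h1 (-(1, 0)) rfl
    have a3 := shift_wave k h0 h1 (0, 1) rfl
    have a4 := shift_wave k h0 h1 (-(0, 1)) rfl
    have hc : (e : ℂ) = 2 * (Complex.exp (k * Complex.I) + Complex.exp (-k * Complex.I)) := by
      rw [← Complex.two_cos, ← Complex.ofReal_cos, hk]
      push_cast
      ring
    have h5 : lap φ - (e : ℂ) • φ =
        (shift (1, 0) φ - Complex.exp (k * Complex.I) • φ) +
        (shift (-(1, 0)) φ - Complex.exp (-k * Complex.I) • φ) +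
        (shift (0, 1) φ - Complex.exp (k * Complex.I) • φ) +
        (shift (-(0, 1)) φ - Complex.exp (-k * Complex.I) • φ) := by
      rw [lap_eq, hc]
      module
    simp only [Prod.fst_neg, Prod.snd_neg, Int.cast_neg, Int.cast_one, Int.cast_zero, neg_zero,
      add_zero, zero_add, mul_one, mul_neg, Complex.ofReal_neg, inv_inv] at a1 a2 a3 a4
    rw [h5]
    refine (norm_add₄_le ..).trans ?_
    change _ ≤ δ * ‖wave k _ h0.le h1‖
    nlinarith

/-- Finitely supported approximate eigenvectors of the hopping operator. -/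
theorem approx_lap_fin {e δ : ℝ} (he : |e| ≤ 4) (hδ : 0 < δ) :
    ∃ (S : Finset Site) (φ : L2), (∀ x ∉ S, φ x = 0) ∧ ‖lap φ - (e : ℂ) • φ‖ < δ * ‖φ‖ := by
  obtain ⟨φ, h0, h⟩ := approx_lap he (half_pos hδ)
  have h1 : ‖lap φ - (e : ℂ) • φ‖ < δ * ‖φ‖ :=
    h.trans_lt (mul_lt_mul_of_pos_right (half_lt_self hδ) (norm_pos_iff.2 h0))
  have ho : IsOpen {φ : L2 | ‖lap φ - (e : ℂ) • φ‖ < δ * ‖φ‖} :=
    isOpen_lt (by fun_prop) (by fun_prop)
  obtain ⟨S, hS⟩ := ((lp.hasSum_single (by norm_num) φ).eventually (ho.mem_nhds h1)).exists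
  refine ⟨S, _, fun x hx => ?_, hS⟩
  rw [lp.coeFn_sum, Finset.sum_apply]
  exact Finset.sum_eq_zero fun y hy => lp.single_apply_ne _ _ _ fun h => hx (h ▸ hy)

theorem lap_shift (a : Site) (φ : L2) : lap (shift a φ) = shift a (lap φ) := by
  refine lp.ext (funext fun x => ?_)
  simp only [lap_eq, map_add, lp.coeFn_add, Pi.add_apply, shift_apply, add_right_comm x]

/-- Every finite pattern of nearly constant values occurs in `w`. -/
def Rich (w : Site → ℝ) : Prop :=
  ∀ (S : Finset Site) (t ε : ℝ), |t| ≤ 1 → 0 < ε → ∃ a : Site, ∀ x ∈ S, |w (x + a) - t| < ε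

theorem mem_spectrum_of_approx {H : L2 →L[ℂ] L2} {z : ℂ}
    (h : ∀ δ : ℝ, 0 < δ → ∃ u : L2, ‖H u - z • u‖ < δ * ‖u‖) : z ∈ spectrum ℂ H := by
  rw [spectrum.mem_iff]
  rintro ⟨U, hU⟩
  set R : L2 →L[ℂ] L2 := ((U⁻¹ : (L2 →L[ℂ] L2)ˣ) : L2 →L[ℂ] L2)
  obtain ⟨u, hu⟩ := h (‖R‖ + 1)⁻¹ (by positivity)
  have h2 : (R * U : L2 →L[ℂ] L2) u = u := by simp [R]
  have h1 : (algebraMap ℂ (L2 →L[ℂ] L2) z - H) u = -(H u - z • u) := by
    simp [Algebra.algebraMap_eq_smul_one]
  rw [mul_apply_eq_comp, hU, h1] at h2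
  have h3 := R.le_opNorm (-(H u - z • u))
  rw [h2, norm_neg] at h3
  rw [lt_inv_mul_iff₀ (by positivity)] at hu
  nlinarith [norm_nonneg (H u - z • u)]

theorem IsAnderson.spectrum_eq {lam : ℝ} (hl : 0 < lam) {w : Site → ℝ} (hw : ∀ x, |w x| ≤ 1)
    (hr : Rich w) {H : L2 →L[ℂ] L2} (h : IsAnderson lam w H) :
    spectrum ℂ H = Complex.ofReal '' Set.Icc (-4 - lam) (4 + lam) := by
  ext z
  constructor
  · intro hz
    obtain ⟨φ, hφ, -⟩ := approx_lap (e := 0) (by norm_num) one_pos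
    have : Nontrivial L2 := ⟨φ, 0, hφ⟩
    have h1 := (h.selfAdjoint hl hw).mem_spectrum_eq_re hz
    have h2 := (spectrum.norm_le_norm_of_mem hz).trans (h.norm_le hl hw)
    have h3 := abs_le.1 ((Complex.abs_re_le_norm z).trans h2)
    exact ⟨z.re, ⟨by linarith [h3.1], h3.2⟩, h1.symm⟩
  · rintro ⟨E, hE, rfl⟩
    refine mem_spectrum_of_approx fun δ hδ => ?_
    set t := E / (4 + lam)
    have hEt : E = 4 * t + lam * t := by simp only [t]; field_simp
    have ht : |t| ≤ 1 := by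
      rw [abs_div, abs_of_pos (by linarith : 0 < 4 + lam), div_le_one (by linarith), abs_le]
      exact ⟨by linarith [hE.1], hE.2⟩
    obtain ⟨S, φ, hS, hφ⟩ := approx_lap_fin (e := 4 * t)
      (by rw [abs_mul]; norm_num; exact ht) (half_pos hδ)
    obtain ⟨a, ha⟩ := hr S t (δ / 2 / lam) ht (by positivity)
    refine ⟨shift (-a) φ, ?_⟩
    set u := shift (-a) φ
    have h1 : ‖lap u - ((4 * t : ℝ) : ℂ) • u‖ < δ / 2 * ‖u‖ := by
      rwa [lap_shift, ← map_smul, ← map_sub, LinearIsometry.norm_map, LinearIsometry.norm_map]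
    have h2 : ‖(H u - (E : ℂ) • u) - (lap u - ((4 * t : ℝ) : ℂ) • u)‖ ≤ δ / 2 * ‖u‖ := by
      refine norm_le_of_le (half_pos hδ).le fun x => ?_
      have h3 : ((H u - (E : ℂ) • u) - (lap u - ((4 * t : ℝ) : ℂ) • u)) x =
          ((lam * (w x - t) : ℝ) : ℂ) * u x := by
        simp only [lp.coeFn_sub, lp.coeFn_smul, Pi.sub_apply, Pi.smul_apply, smul_eq_mul,
          isAnderson_iff.1 h u x]
        rw [hEt]
        push_cast
        ring
      rw [h3, norm_mul, Complex.norm_real, Real.norm_eq_abs]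
      by_cases hx : x + -a ∈ S
      · have h4 := ha _ hx
        rw [neg_add_cancel_right, lt_div_iff₀ hl] at h4
        rw [abs_mul, abs_of_pos hl]
        gcongr
        linarith
      · have : u x = 0 := hS _ hx
        simp [this]
    have h5 := norm_sub_norm_le (H u - (E : ℂ) • u) (lap u - ((4 * t : ℝ) : ℂ) • u)
    linarith

end Vale.Agent.P365W
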